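import Vale.Agent.Lib.Helper7.Gauss1D

/-!
# P226: the propeller bound for partitions without cells of intermediate measure

For every dimension `d`, every number `k` of cells and every family of pairwise disjoint
measurable sets `A i ⊆ ℝ^d`, each of standard Gaussian measure at most `1/7` or at least `4/9`,
`∑ i, ‖∫_{A i} x dγ‖² ≤ 9 / (8 π)`.

The proof is a sharp one-cell estimate: among sets of Gaussian measure `p`, the Gaussian first
moment has norm at most `phi s` where `Q s = p` (half-spaces are extremal), and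
`phi s ^ 2 ≤ (9 / (8 π)) * Q s` for all `s ≥ 133/125`, while `Q (133/125) ≥ 1/7`.
-/

open MeasureTheory ProbabilityTheory Filter Topology
open scoped Real

namespace Vale.Agent.Results.P226.NoIntermediateCells

open Vale.Agent.Lib.Helper7.Gauss1D

lemma Q_lower : (1435 / 10000 : ℝ) ≤ Q (133 / 125) := by
  have h := Q_ge5 (s := 133 / 125) (by norm_num) (by norm_num)
  have ha : (√(2 * π))⁻¹ ≤ 398943 / 1000000 :=
    inv_sqrt_two_pi_le (by norm_num) (by nlinarith [Real.pi_gt_d6])
  have hP : (133 / 125 : ℝ) - (133 / 125) ^ 3 / 6 + (133 / 125) ^ 5 / 40 - (133 / 125) ^ 7 / 336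
      + (133 / 125) ^ 9 / 3456 + (133 / 125) ^ 11 / 35200
      = 49417888917358138236984459367 / 55320560932159423828125000000 := by
    norm_num
  rw [hP] at h
  nlinarith

lemma exp_bound : Real.exp (-(133 / 125 : ℝ) ^ 2) ≤ 10 / 31 := by
  have h := Real.sum_le_exp_of_nonneg (x := (133 / 125 : ℝ) ^ 2) (by norm_num) 8
  have h2 : (31 / 10 : ℝ) ≤ Real.exp ((133 / 125 : ℝ) ^ 2) := by
    refine le_trans ?_ h
    simp [Finset.sum_range_succ, Nat.factorial]
    norm_num
  rw [Real.exp_neg]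
  rw [inv_le_comm₀ (Real.exp_pos _) (by norm_num)]
  norm_num
  linarith

lemma phi_sq_at : phi (133 / 125) ^ 2 ≤ 9 / (8 * π) * Q (133 / 125) := by
  have e : phi (133 / 125) ^ 2 = 1 / (2 * π) * Real.exp (-(133 / 125 : ℝ) ^ 2) := by
    unfold phi
    rw [mul_pow, inv_sqrt_two_pi_sq, ← Real.exp_nat_mul]
    congr 2
    push_cast
    ring
  rw [e]
  have h1 := exp_bound
  have h2 := Q_lower
  have hpi : 0 < π := Real.pi_pos
  have e2 : 9 / (8 * π) * Q (133 / 125) = 1 / (2 * π) * (9 / 4 * Q (133 / 125)) := by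
    field_simp
    ring
  rw [e2]
  refine mul_le_mul_of_nonneg_left ?_ (by positivity)
  linarith

section
variable {E : Type*} [NormedAddCommGroup E] [InnerProductSpace ℝ E] [FiniteDimensional ℝ E]
  [MeasurableSpace E] [BorelSpace E]

/-- The one-cell estimate: a set of Gaussian measure at most `1/7` has squared first moment at
most `9 / (8 π)` times its measure. -/
lemma cell_bound (A : Set E) (hA : (stdGaussian E).real A ≤ 1 / 7) :
    ‖∫ x in A, x ∂(stdGaussian E)‖ ^ 2 ≤ 9 / (8 * π) * (stdGaussian E).real A := by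
  have hp0 : 0 ≤ (stdGaussian E).real A := measureReal_nonneg
  rcases hp0.eq_or_lt with hp | hp
  · -- measure zero: the first moment vanishes
    have h : ‖∫ x in A, x ∂(stdGaussian E)‖ ≤ 0 := by
      refine ge_of_tendsto tendsto_phi_atTop ?_
      filter_upwards [eventually_ge_atTop (0 : ℝ)] with s hs
      have h1 := norm_setIntegral_le A hs
      have h2 : 0 ≤ s * Q s := mul_nonneg hs (Q_nonneg s)
      rw [← hp] at h1
      linarith
    have h0 : ‖∫ x in A, x ∂(stdGaussian E)‖ = 0 := le_antisymm h (norm_nonneg _)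
    rw [h0, ← hp]
    simp
  · have hQ := Q_lower
    obtain ⟨s, hs, hQs⟩ := exists_Q_eq (s0 := 133 / 125) hp (by linarith)
    have h1 := norm_setIntegral_le A (show (0 : ℝ) ≤ s by linarith)
    rw [← hQs] at h1 ⊢
    have h2 : ‖∫ x in A, x ∂(stdGaussian E)‖ ≤ phi s := by linarith
    have h3 : phi s ^ 2 ≤ 9 / (8 * π) * Q s :=
      phi_sq_le_mul_Q (by positivity) (by norm_num) phi_sq_at hs
    have h4 : ‖∫ x in A, x ∂(stdGaussian E)‖ ^ 2 ≤ phi s ^ 2 :=
      pow_le_pow_left₀ (norm_nonneg _) h2 2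
    linarith

/-- A set of Gaussian measure at least `4/9` also satisfies the one-cell estimate. -/
lemma cell_bound_large (A : Set E) (hA : 4 / 9 ≤ (stdGaussian E).real A) :
    ‖∫ x in A, x ∂(stdGaussian E)‖ ^ 2 ≤ 9 / (8 * π) * (stdGaussian E).real A := by
  have h1 := norm_setIntegral_le A (le_refl (0 : ℝ))
  have h2 : ‖∫ x in A, x ∂(stdGaussian E)‖ ≤ phi 0 := by linarith
  have h4 : ‖∫ x in A, x ∂(stdGaussian E)‖ ^ 2 ≤ phi 0 ^ 2 :=
    pow_le_pow_left₀ (norm_nonneg _) h2 2
  have h5 : phi 0 ^ 2 = 9 / (8 * π) * (4 / 9) := by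
    unfold phi
    have hpi : 0 < π := Real.pi_pos
    rw [mul_pow, inv_sqrt_two_pi_sq]
    simp
    field_simp
    ring
  have hc : (0 : ℝ) ≤ 9 / (8 * π) := by positivity
  have h6 := mul_le_mul_of_nonneg_left hA hc
  linarith

end

theorem result (d k : ℕ) (A : Fin k → Set (EuclideanSpace ℝ (Fin d)))
    (hA : ∀ i, MeasurableSet (A i)) (hdisj : Pairwise (Function.onFun Disjoint A))
    (hsmall : ∀ i, (stdGaussian (EuclideanSpace ℝ (Fin d))).real (A i) ≤ 1 / 7 ∨
      4 / 9 ≤ (stdGaussian (EuclideanSpace ℝ (Fin d))).real (A i)) :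
    ∑ i, ‖∫ x in A i, x ∂(stdGaussian (EuclideanSpace ℝ (Fin d)))‖ ^ 2 ≤ 9 / (8 * π) := by
  have h1 : ∑ i, ‖∫ x in A i, x ∂(stdGaussian (EuclideanSpace ℝ (Fin d)))‖ ^ 2
      ≤ ∑ i, 9 / (8 * π) * (stdGaussian (EuclideanSpace ℝ (Fin d))).real (A i) :=
    Finset.sum_le_sum fun i _ => (hsmall i).elim (cell_bound (A i)) (cell_bound_large (A i))
  have h2 : ∑ i, (stdGaussian (EuclideanSpace ℝ (Fin d))).real (A i)
      = (stdGaussian (EuclideanSpace ℝ (Fin d))).real (⋃ i, A i) :=
    (measureReal_iUnion_fintype hdisj hA).symm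
  have h3 : (stdGaussian (EuclideanSpace ℝ (Fin d))).real (⋃ i, A i) ≤ 1 := measureReal_le_one
  rw [← Finset.mul_sum, h2] at h1
  have hc : (0 : ℝ) ≤ 9 / (8 * π) := by positivity
  nlinarith

end Vale.Agent.Results.P226.NoIntermediateCells
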