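import Vale.Agent.Lib.Helper9.P226.Cell
import Vale.Agent.Lib.Helper9.P226.Num

open MeasureTheory ProbabilityTheory
open Vale.Agent.Lib.Helper9.P226

namespace Vale.Agent.Results.P226.SharpCells

section
variable {E : Type*} [NormedAddCommGroup E] [InnerProductSpace ℝ E] [FiniteDimensional ℝ E]
  [MeasurableSpace E] [BorelSpace E]

/-- Every set has squared first moment at most `41/100` times its measure. -/
lemma cell_univ (A : Set E) :
    ‖∫ x in A, x ∂(stdGaussian E)‖ ^ 2 ≤ 41 / 100 * (stdGaussian E).real A :=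
  norm_sq_setIntegral_le_of_nonneg (by norm_num) phi_sq_le_univ A

/-- A set of measure at most one seventh, or at least four ninths, has squared first moment
at most `9/(8π)` times its measure. -/
lemma cell_sharp (A : Set E)
    (h : (stdGaussian E).real A ≤ 1 / 7 ∨ 4 / 9 ≤ (stdGaussian E).real A) :
    ‖∫ x in A, x ∂(stdGaussian E)‖ ^ 2 ≤ 9 / (8 * Real.pi) * (stdGaussian E).real A := by
  rcases h with h | h
  · exact norm_sq_setIntegral_le_of_tail phi_sq_le_sharp A (le_trans h one_seventh_le_Q)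
  · have h1 := norm_setIntegral_le A 0
    rw [zero_mul, add_zero] at h1
    have h2 : phi 0 ^ 2 = 1 / (2 * Real.pi) := by
      rw [phi_sq_eq]
      simp
    have hpi := Real.pi_pos
    calc ‖∫ x in A, x ∂(stdGaussian E)‖ ^ 2 ≤ phi 0 ^ 2 :=
          pow_le_pow_left₀ (norm_nonneg _) h1 2
      _ = 1 / (2 * Real.pi) := h2
      _ = 9 / (8 * Real.pi) * (4 / 9) := by
          field_simp
          ring
      _ ≤ 9 / (8 * Real.pi) * (stdGaussian E).real A :=
          mul_le_mul_of_nonneg_left h (by positivity)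

end

theorem result (d k : ℕ) (A : Fin k → Set (EuclideanSpace ℝ (Fin d)))
    (hA : ∀ i, MeasurableSet (A i)) (hdisj : Pairwise (Function.onFun Disjoint A)) :
    (∑ i, ‖∫ x in A i, x ∂(stdGaussian (EuclideanSpace ℝ (Fin d)))‖ ^ 2 ≤ 41 / 100) ∧
    ((∀ i, (stdGaussian (EuclideanSpace ℝ (Fin d))).real (A i) ≤ 1 / 7
        ∨ 4 / 9 ≤ (stdGaussian (EuclideanSpace ℝ (Fin d))).real (A i)) →
      ∑ i, ‖∫ x in A i, x ∂(stdGaussian (EuclideanSpace ℝ (Fin d)))‖ ^ 2
        ≤ 9 / (8 * Real.pi)) ∧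
    (∀ (i : Fin k) (τ : ℝ),
      ‖∫ x in A i, x ∂(stdGaussian (EuclideanSpace ℝ (Fin d)))‖
        ≤ Real.exp (-(τ ^ 2) / 2) / Real.sqrt (2 * Real.pi)
          + τ * ((stdGaussian (EuclideanSpace ℝ (Fin d))).real (A i)
            - (gaussianReal 0 1).real (Set.Ioi τ))) := by
  refine ⟨?_, ?_, ?_⟩
  · exact sum_norm_sq_le (by norm_num) A hA hdisj fun i => cell_univ (A i)
  · intro h
    exact sum_norm_sq_le (by positivity) A hA hdisj fun i => cell_sharp (A i) (h i)
  · intro i τ
    exact norm_setIntegral_le (A i) τ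

end Vale.Agent.Results.P226.SharpCells
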