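import Vale.Agent.Lib.Helper7.Gauss1D

/-!
# P226: a universal bound `41/100` for the propeller functional

For every dimension `d`, every number `k` of cells and every family of pairwise disjoint
measurable sets `A i ⊆ ℝ^d`, `∑ i, ‖∫_{A i} x dγ‖² ≤ 41/100`.

The proof is the sharp one-cell estimate (half-spaces maximise the first moment among sets of
given Gaussian measure): `‖∫_A x dγ‖ ≤ phi s` when `γ(A) = Q s`, together with the scalar
inequality `phi s ^ 2 ≤ (41/100) * Q s` for all `s ≥ 0`.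
-/

open MeasureTheory ProbabilityTheory Filter Topology
open scoped Real

namespace Vale.Agent.Results.P226.UniversalBound

open Vale.Agent.Lib.Helper7.Gauss1D

lemma inv_le : (√(2 * π))⁻¹ ≤ 398943 / 1000000 :=
  inv_sqrt_two_pi_le (by norm_num) (by nlinarith [Real.pi_gt_d6])

lemma le_inv : (398942 / 1000000 : ℝ) ≤ (√(2 * π))⁻¹ :=
  le_inv_sqrt_two_pi (by nlinarith [Real.pi_lt_d6, Real.pi_pos])

lemma phi_upper : phi (623 / 1000) ≤ 328574 / 1000000 := by
  have h := phi_le_poly (s := 623 / 1000) (by norm_num)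
  have hP : (1 - ((623 / 1000 : ℝ) ^ 2 / 2) + ((623 / 1000 : ℝ) ^ 2 / 2) ^ 2 / 2
      - ((623 / 1000 : ℝ) ^ 2 / 2) ^ 3 / 6 + ((623 / 1000 : ℝ) ^ 2 / 2) ^ 4 / 24
      + ((623 / 1000 : ℝ) ^ 2 / 2) ^ 5 / 100)
      = 7906653639858542762637094841574947 / 9600000000000000000000000000000000 := by
    norm_num
  rw [hP] at h
  have ha := inv_le
  linarith

lemma phi_lower : (327544 / 1000000 : ℝ) ≤ phi (628 / 1000) := by
  have h := poly_le_phi (s := 628 / 1000) (by norm_num)
  have hP : (1 - ((628 / 1000 : ℝ) ^ 2 / 2) + ((628 / 1000 : ℝ) ^ 2 / 2) ^ 2 / 2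
      - ((628 / 1000 : ℝ) ^ 2 / 2) ^ 3 / 6 + ((628 / 1000 : ℝ) ^ 2 / 2) ^ 4 / 24
      - ((628 / 1000 : ℝ) ^ 2 / 2) ^ 5 / 100)
      = 7516776155111467016797367753 / 9155273437500000000000000000 := by
    norm_num
  rw [hP] at h
  have ha := le_inv
  linarith

lemma Q_lower : (265001 / 1000000 : ℝ) ≤ Q (628 / 1000) := by
  have h := Q_ge5 (s := 628 / 1000) (by norm_num) (by norm_num)
  have hP : (628 / 1000 : ℝ) - (628 / 1000) ^ 3 / 6 + (628 / 1000) ^ 5 / 40
      - (628 / 1000) ^ 7 / 336 + (628 / 1000) ^ 9 / 3456 + (628 / 1000) ^ 11 / 35200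
      = 934327100828387458018254079305077 / 1586151123046875000000000000000000 := by
    norm_num
  rw [hP] at h
  have ha := inv_le
  linarith

/-- The scalar inequality: `phi s ^ 2 ≤ (41/100) * Q s` for every `s ≥ 0`. -/
lemma phi_sq_le {s : ℝ} (hs : 0 ≤ s) : phi s ^ 2 ≤ 41 / 100 * Q s := by
  have h1 := phi_upper
  have h2 := phi_lower
  have h3 := Q_lower
  refine phi_sq_le_mul_Q_of_bracket (a := 623 / 1000) (b := 628 / 1000) (by norm_num)
    (by norm_num) (by norm_num) (by norm_num) (by linarith) (by linarith) ?_ hs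
  have h4 : phi (623 / 1000) ^ 2 ≤ (328574 / 1000000 : ℝ) ^ 2 :=
    pow_le_pow_left₀ (phi_pos _).le h1 2
  nlinarith

section
variable {E : Type*} [NormedAddCommGroup E] [InnerProductSpace ℝ E] [FiniteDimensional ℝ E]
  [MeasurableSpace E] [BorelSpace E]

/-- The one-cell estimate: every set has squared Gaussian first moment at most `41/100` times
its Gaussian measure. -/
lemma cell_bound (A : Set E) :
    ‖∫ x in A, x ∂(stdGaussian E)‖ ^ 2 ≤ 41 / 100 * (stdGaussian E).real A := by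
  have hp0 : 0 ≤ (stdGaussian E).real A := measureReal_nonneg
  rcases hp0.eq_or_lt with hp | hp
  · -- measure zero: the first moment vanishes
    have h : ‖∫ x in A, x ∂(stdGaussian E)‖ ≤ 0 := by
      refine ge_of_tendsto tendsto_phi_atTop ?_
      filter_upwards [eventually_ge_atTop (0 : ℝ)] with s hs
      have h1 := norm_setIntegral_le A hs
      have h2 : 0 ≤ s * Q s := mul_nonneg hs (Q_nonneg s)
      rw [← hp] at h1
      linarith
    have h0 : ‖∫ x in A, x ∂(stdGaussian E)‖ = 0 := le_antisymm h (norm_nonneg _)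
    rw [h0, ← hp]
    simp
  · rcases le_or_gt ((stdGaussian E).real A) (1 / 2) with hle | hgt
    · obtain ⟨s, hs, hQs⟩ := exists_Q_eq (s0 := 0) hp (by rw [Q_zero]; exact hle)
      have h1 := norm_setIntegral_le A hs
      rw [← hQs] at h1 ⊢
      have h2 : ‖∫ x in A, x ∂(stdGaussian E)‖ ≤ phi s := by linarith
      have h3 : phi s ^ 2 ≤ 41 / 100 * Q s := phi_sq_le hs
      have h4 : ‖∫ x in A, x ∂(stdGaussian E)‖ ^ 2 ≤ phi s ^ 2 :=
        pow_le_pow_left₀ (norm_nonneg _) h2 2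
      linarith
    · have h1 := norm_setIntegral_le A (le_refl (0 : ℝ))
      have h2 : ‖∫ x in A, x ∂(stdGaussian E)‖ ≤ phi 0 := by linarith
      have h4 : ‖∫ x in A, x ∂(stdGaussian E)‖ ^ 2 ≤ phi 0 ^ 2 :=
        pow_le_pow_left₀ (norm_nonneg _) h2 2
      have h5 : phi 0 ^ 2 ≤ 41 / 100 * Q 0 := phi_sq_le le_rfl
      rw [Q_zero] at h5
      linarith

end

theorem result (d k : ℕ) (A : Fin k → Set (EuclideanSpace ℝ (Fin d)))
    (hA : ∀ i, MeasurableSet (A i)) (hdisj : Pairwise (Function.onFun Disjoint A)) :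
    ∑ i, ‖∫ x in A i, x ∂(stdGaussian (EuclideanSpace ℝ (Fin d)))‖ ^ 2 ≤ 41 / 100 := by
  have h1 : ∑ i, ‖∫ x in A i, x ∂(stdGaussian (EuclideanSpace ℝ (Fin d)))‖ ^ 2
      ≤ ∑ i, 41 / 100 * (stdGaussian (EuclideanSpace ℝ (Fin d))).real (A i) :=
    Finset.sum_le_sum fun i _ => cell_bound (A i)
  have h2 : ∑ i, (stdGaussian (EuclideanSpace ℝ (Fin d))).real (A i)
      = (stdGaussian (EuclideanSpace ℝ (Fin d))).real (⋃ i, A i) :=
    (measureReal_iUnion_fintype hdisj hA).symm
  have h3 : (stdGaussian (EuclideanSpace ℝ (Fin d))).real (⋃ i, A i) ≤ 1 := measureReal_le_one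
  rw [← Finset.mul_sum, h2] at h1
  linarith

end Vale.Agent.Results.P226.UniversalBound
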