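import Mathlib

open MeasureTheory ProbabilityTheory
open scoped RealInnerProductSpace

namespace Vale.Agent.Results.P226.UniversalHalf

section
variable {E : Type*} [NormedAddCommGroup E] [InnerProductSpace ℝ E] [FiniteDimensional ℝ E]
  [MeasurableSpace E] [BorelSpace E]

lemma integral_inner_sq (z : E) : ∫ x, (⟪z, x⟫) ^ 2 ∂(stdGaussian E) = ‖z‖ ^ 2 := by
  have h1 := variance_dual_stdGaussian (E := E) (innerSL ℝ z)
  have h2 : Var[(innerSL ℝ z : E → ℝ); stdGaussian E]
      = ∫ x, ((innerSL ℝ z) x) ^ 2 ∂(stdGaussian E) :=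
    variance_of_integral_eq_zero (by fun_prop) (integral_strongDual_stdGaussian _)
  rw [h2] at h1
  simpa [innerSL_apply_apply, innerSL_apply_norm] using h1

lemma integrable_inner_sq (z : E) : Integrable (fun x : E => (⟪z, x⟫) ^ 2) (stdGaussian E) := by
  have h := (IsGaussian.memLp_dual (stdGaussian E) (innerSL ℝ z) 2 (by simp)).integrable_sq
  simpa [innerSL_apply_apply] using h

lemma integrable_posPart_sq (z : E) :
    Integrable (fun x : E => (max ⟪z, x⟫ 0) ^ 2) (stdGaussian E) := by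
  refine Integrable.mono' (integrable_inner_sq z) (by fun_prop) (Filter.Eventually.of_forall ?_)
  intro x
  have h0 : 0 ≤ max ⟪z, x⟫ 0 := le_max_right _ _
  rw [Real.norm_of_nonneg (by positivity)]
  rcases le_total ⟪z, x⟫ 0 with h | h
  · rw [max_eq_right h]; nlinarith [sq_nonneg ⟪z, x⟫]
  · rw [max_eq_left h]

lemma integral_posPart_sq (z : E) :
    ∫ x, (max ⟪z, x⟫ 0) ^ 2 ∂(stdGaussian E) = ‖z‖ ^ 2 / 2 := by
  have hneg : (stdGaussian E).map (LinearIsometryEquiv.neg ℝ (E := E)) = stdGaussian E :=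
    stdGaussian_map _
  have h1 : ∫ x, (max ⟪z, x⟫ 0) ^ 2 ∂(stdGaussian E)
      = ∫ x, (max (-⟪z, x⟫) 0) ^ 2 ∂(stdGaussian E) := by
    conv_lhs => rw [← hneg]
    rw [integral_map (by fun_prop) (by fun_prop)]
    simp [inner_neg_right]
  have hint2 : Integrable (fun x : E => (max (-⟪z, x⟫) 0) ^ 2) (stdGaussian E) := by
    have := integrable_posPart_sq (-z)
    simpa [inner_neg_left] using this
  have h2 : ∫ x, (max ⟪z, x⟫ 0) ^ 2 ∂(stdGaussian E)
      + ∫ x, (max (-⟪z, x⟫) 0) ^ 2 ∂(stdGaussian E) = ‖z‖ ^ 2 := by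
    rw [← integral_add (integrable_posPart_sq z) hint2, ← integral_inner_sq z]
    congr 1
    funext x
    rcases le_total ⟪z, x⟫ 0 with h | h
    · rw [max_eq_right h, max_eq_left (by linarith)]; ring
    · rw [max_eq_left h, max_eq_right (by linarith)]; ring
  linarith

lemma norm_sq_setIntegral_le (A : Set E) :
    ‖∫ x in A, x ∂(stdGaussian E)‖ ^ 2 ≤ (stdGaussian E).real A / 2 := by
  set z : E := ∫ x in A, x ∂(stdGaussian E) with hz
  have hid : IntegrableOn (fun x : E => x) A (stdGaussian E) :=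
    (IsGaussian.integrable_fun_id (μ := stdGaussian E)).integrableOn
  have e1 : ‖z‖ ^ 2 = ∫ x in A, ⟪z, x⟫ ∂(stdGaussian E) := by
    rw [integral_inner hid z, ← hz, real_inner_self_eq_norm_sq]
  have hL : IntegrableOn (fun x : E => ⟪z, x⟫) A (stdGaussian E) := by
    have := (IsGaussian.integrable_dual (stdGaussian E) (innerSL ℝ z)).integrableOn (s := A)
    simpa [innerSL_apply_apply] using this
  have hP : IntegrableOn (fun x : E => (1 / 4 : ℝ) + (max ⟪z, x⟫ 0) ^ 2) A (stdGaussian E) :=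
    ((integrable_const _).add (integrable_posPart_sq z)).integrableOn
  have e2 : ∫ x in A, ⟪z, x⟫ ∂(stdGaussian E)
      ≤ ∫ x in A, ((1 / 4 : ℝ) + (max ⟪z, x⟫ 0) ^ 2) ∂(stdGaussian E) := by
    refine setIntegral_mono hL hP ?_
    intro x
    have h0 : ⟪z, x⟫ ≤ max ⟪z, x⟫ 0 := le_max_left _ _
    nlinarith [sq_nonneg (max ⟪z, x⟫ 0 - 1 / 2)]
  have e3 : ∫ x in A, ((1 / 4 : ℝ) + (max ⟪z, x⟫ 0) ^ 2) ∂(stdGaussian E)
      = (stdGaussian E).real A / 4 + ∫ x in A, (max ⟪z, x⟫ 0) ^ 2 ∂(stdGaussian E) := by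
    rw [integral_add (integrable_const _).integrableOn (integrable_posPart_sq z).integrableOn]
    simp
    ring
  have e4 : ∫ x in A, (max ⟪z, x⟫ 0) ^ 2 ∂(stdGaussian E) ≤ ‖z‖ ^ 2 / 2 := by
    rw [← integral_posPart_sq z]
    exact setIntegral_le_integral (integrable_posPart_sq z)
      (Filter.Eventually.of_forall fun x => by positivity)
  linarith

end

theorem result (d k : ℕ) (A : Fin k → Set (EuclideanSpace ℝ (Fin d)))
    (hA : ∀ i, MeasurableSet (A i)) (hdisj : Pairwise (Function.onFun Disjoint A)) :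
    ∑ i, ‖∫ x in A i, x ∂(stdGaussian (EuclideanSpace ℝ (Fin d)))‖ ^ 2 ≤ 1 / 2 := by
  have h1 : ∑ i, ‖∫ x in A i, x ∂(stdGaussian (EuclideanSpace ℝ (Fin d)))‖ ^ 2
      ≤ ∑ i, (stdGaussian (EuclideanSpace ℝ (Fin d))).real (A i) / 2 :=
    Finset.sum_le_sum fun i _ => norm_sq_setIntegral_le (A i)
  have h2 : ∑ i, (stdGaussian (EuclideanSpace ℝ (Fin d))).real (A i)
      = (stdGaussian (EuclideanSpace ℝ (Fin d))).real (⋃ i, A i) :=
    (measureReal_iUnion_fintype hdisj hA).symm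
  have h3 : (stdGaussian (EuclideanSpace ℝ (Fin d))).real (⋃ i, A i) ≤ 1 := by
    exact measureReal_le_one
  rw [← Finset.sum_div] at h1
  linarith

end Vale.Agent.Results.P226.UniversalHalf
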